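import Vale.Agent.Lib.P067.F.Cplx

/-!
# P067: finite pure complexes given by their sets of top-dimensional faces

A finite pure `d`-dimensional simplicial complex is given by the finite set `T` of its `d`-faces
(sets of `d + 1` natural numbers); its `i`-faces are the `(i + 1)`-element subsets of the members of `T`.
-/

namespace Vale.P067.Facet

open Finset

/-- `X(i)`: the `i`-faces, that is, the `(i + 1)`-element subsets of the `d`-faces `τ ∈ T`. -/
def faces {V : Type} [DecidableEq V] (T : Finset (Finset V)) (i : ℕ) : Finset (Finset V) :=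
  T.biUnion fun τ => τ.powersetCard (i + 1)

/-- `w_i(σ) = #{τ ∈ X(d) : σ ⊆ τ} / (binom(d+1, i+1) |X(d)|)`. -/
noncomputable def weight {V : Type} [DecidableEq V] (T : Finset (Finset V)) (d i : ℕ)
    (σ : Finset V) : ℝ :=
  ((T.filter fun τ => σ ⊆ τ).card : ℝ) / (((d + 1).choose (i + 1) : ℝ) * (T.card : ℝ))

/-- `‖f‖_i`: the sum of the weights `w_i(σ)` over the `i`-faces `σ` with `f σ ≠ 0`. -/
noncomputable def size {V : Type} [DecidableEq V] (T : Finset (Finset V)) (d i : ℕ)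
    (f : Finset V → ZMod 2) : ℝ :=
  ∑ σ ∈ (faces T i).filter fun σ => f σ ≠ 0, weight T d i σ

/-- `(δ_i f)(τ)`: the sum in `F_2` of the values `f σ` over the `σ ⊆ τ` with `i + 1` elements. -/
def cobd {V : Type} (i : ℕ) (f : Finset V → ZMod 2) (τ : Finset V) : ZMod 2 :=
  ∑ σ ∈ τ.powersetCard (i + 1), f σ

/-- `b ∈ B^i`: `b` is constant if `i = 0`, and `b = δ_{i-1} g` for some `g` if `i ≥ 1`. -/
def IsCoboundary {V : Type} (i : ℕ) (b : Finset V → ZMod 2) : Prop :=
  (i = 0 ∧ ∃ c : ZMod 2, ∀ σ, b σ = c) ∨ ∃ j, i = j + 1 ∧ ∃ g, b = cobd j g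

/-! ### transport along an injection of the vertex set -/

section Transport

variable {V W : Type} [DecidableEq V] [DecidableEq W] (e : V ↪ W)

/-- the image of a family of sets -/
def mapT (T : Finset (Finset V)) : Finset (Finset W) := T.map (Finset.mapEmbedding e).toEmbedding

theorem mem_mapT {T : Finset (Finset V)} {τ' : Finset W} :
    τ' ∈ mapT e T ↔ ∃ τ ∈ T, τ.map e = τ' := by
  simp [mapT]

theorem card_mapT (T : Finset (Finset V)) : (mapT e T).card = T.card := by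
  simp [mapT]

theorem faces_mapT (T : Finset (Finset V)) (i : ℕ) :
    faces (mapT e T) i = mapT e (faces T i) := by
  ext σ'
  rw [mem_mapT, faces, mem_biUnion]
  constructor
  · rintro ⟨τ', hτ', hσ'⟩
    obtain ⟨τ, hτ, rfl⟩ := (mem_mapT e).mp hτ'
    rw [powersetCard_map, mem_map] at hσ'
    obtain ⟨σ, hσ, rfl⟩ := hσ'
    exact ⟨σ, mem_biUnion.mpr ⟨τ, hτ, hσ⟩, rfl⟩
  · rintro ⟨σ, hσ, rfl⟩
    obtain ⟨τ, hτ, hσ⟩ := mem_biUnion.mp hσ
    refine ⟨τ.map e, (mem_mapT e).mpr ⟨τ, hτ, rfl⟩, ?_⟩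
    rw [powersetCard_map, mem_map]
    exact ⟨σ, hσ, rfl⟩

theorem weight_mapT (T : Finset (Finset V)) (d i : ℕ) (σ : Finset V) :
    weight (mapT e T) d i (σ.map e) = weight T d i σ := by
  unfold weight
  rw [card_mapT]
  congr 2
  have : ((mapT e T).filter fun τ => σ.map e ⊆ τ) = mapT e (T.filter fun τ => σ ⊆ τ) := by
    ext τ'
    rw [mem_filter, mem_mapT, mem_mapT]
    constructor
    · rintro ⟨⟨τ, hτ, rfl⟩, h⟩
      exact ⟨τ, mem_filter.mpr ⟨hτ, map_subset_map.mp h⟩, rfl⟩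
    · rintro ⟨τ, hτ, rfl⟩
      rw [mem_filter] at hτ
      exact ⟨⟨τ, hτ.1, rfl⟩, map_subset_map.mpr hτ.2⟩
  rw [this, card_mapT]

theorem size_mapT (T : Finset (Finset V)) (d i : ℕ) (f : Finset W → ZMod 2) :
    size (mapT e T) d i f = size T d i (fun σ => f (σ.map e)) := by
  unfold size
  rw [faces_mapT]
  have : (mapT e (faces T i)).filter (fun σ => f σ ≠ 0)
      = ((faces T i).filter fun σ => f (σ.map e) ≠ 0).map (Finset.mapEmbedding e).toEmbedding := by
    rw [mapT, filter_map]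
    rfl
  rw [this, sum_map]
  exact sum_congr rfl fun σ _ => weight_mapT e T d i σ

theorem cobd_map (i : ℕ) (f : Finset W → ZMod 2) (τ : Finset V) :
    cobd i f (τ.map e) = cobd i (fun σ => f (σ.map e)) τ := by
  unfold cobd
  rw [powersetCard_map, sum_map]
  rfl

/-- every coboundary comes from a coboundary on the larger vertex set -/
theorem exists_isCoboundary {i : ℕ} {b : Finset V → ZMod 2} (hb : IsCoboundary i b) :
    ∃ b' : Finset W → ZMod 2, IsCoboundary i b' ∧ (fun σ => b' (σ.map e)) = b := by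
  classical
  rcases hb with ⟨h0, c, hc⟩ | ⟨j, hj, g, hg⟩
  · exact ⟨fun _ => c, Or.inl ⟨h0, c, fun _ => rfl⟩, funext fun σ => (hc σ).symm⟩
  · set g' : Finset W → ZMod 2 := fun σ' => if h : ∃ σ : Finset V, σ.map e = σ' then g h.choose
      else 0 with hg'
    have hgg : (fun σ : Finset V => g' (σ.map e)) = g := by
      funext σ
      have h : ∃ ρ : Finset V, ρ.map e = σ.map e := ⟨σ, rfl⟩
      have h1 : h.choose = σ := map_injective e h.choose_spec
      simp only [hg', dif_pos h, h1]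
    refine ⟨cobd j g', Or.inr ⟨j, hj, g', rfl⟩, ?_⟩
    funext τ
    rw [cobd_map, hgg, hg]

end Transport

/-! ### complexes on `Fin n` -/

section Fin

variable {n : ℕ} (K : AbstractSimplicialComplex (Fin n))

open scoped Classical in
theorem faces_eq {d : ℕ} (hp : ∀ σ ∈ K, ∃ τ ∈ K, τ.card = d + 1 ∧ σ ⊆ τ) (i : ℕ) :
    faces (Cplx.faces K d) i = Cplx.faces K i := by
  ext σ
  simp only [faces, mem_biUnion, Cplx.faces, mem_filter, mem_univ, true_and, mem_powersetCard]
  constructor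
  · rintro ⟨τ, hτ, hσ⟩
    refine ⟨(K.isRelLowerSet_faces hτ.1).2 hσ.1 ?_, hσ.2⟩
    rw [← card_pos, hσ.2]
    omega
  · rintro ⟨hσ, hc⟩
    obtain ⟨τ, hτ, hτc, hs⟩ := hp σ hσ
    exact ⟨τ, ⟨hτ, hτc⟩, hs, hc⟩

open scoped Classical in
theorem weight_eq (d i : ℕ) (σ : Finset (Fin n)) :
    weight (Cplx.faces K d) d i σ = Cplx.weight K d i σ := by
  unfold weight Cplx.weight
  congr!

open scoped Classical in
theorem size_eq {d : ℕ} (hp : ∀ σ ∈ K, ∃ τ ∈ K, τ.card = d + 1 ∧ σ ⊆ τ) (i : ℕ)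
    (f : Finset (Fin n) → ZMod 2) : size (Cplx.faces K d) d i f = Cplx.size K d i f := by
  unfold size Cplx.size
  rw [faces_eq K hp]
  refine sum_congr ?_ fun σ _ => weight_eq K d i σ
  congr!

theorem isCoboundary_of_mem {i : ℕ} {b : Finset (Fin n) → ZMod 2} (hb : b ∈ Cplx.B i) :
    IsCoboundary i b := by
  cases i with
  | zero =>
    obtain ⟨c, hc⟩ := hb
    exact Or.inl ⟨rfl, c, hc⟩
  | succ j =>
    obtain ⟨g, hg⟩ := hb
    exact Or.inr ⟨j, rfl, g, hg.symm⟩

theorem card_faces_zero : n ≤ (Cplx.faces K 0).card := by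
  classical
  have h : ((univ : Finset (Fin n)).map ⟨fun v => ({v} : Finset (Fin n)),
      fun a b h => by simpa using h⟩) ⊆ Cplx.faces K 0 := by
    intro σ hσ
    rw [mem_map] at hσ
    obtain ⟨v, _, rfl⟩ := hσ
    simp only [Cplx.faces, mem_filter, mem_univ, true_and]
    exact ⟨K.singleton_mem v, card_singleton v⟩
  calc n = (univ : Finset (Fin n)).card := by simp
    _ = _ := (card_map _).symm
    _ ≤ _ := card_le_card h

theorem connected_mapT {d : ℕ} (hd : 1 ≤ d) (hp : ∀ σ ∈ K, ∃ τ ∈ K, τ.card = d + 1 ∧ σ ⊆ τ)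
    (hc : (SimpleGraph.fromRel fun u v : Fin n => ({u, v} : Finset _) ∈ K).Connected) (u v : ℕ)
    (hu : {u} ∈ faces (mapT Fin.valEmbedding (Cplx.faces K d)) 0)
    (hv : {v} ∈ faces (mapT Fin.valEmbedding (Cplx.faces K d)) 0) :
    Relation.ReflTransGen
      (fun a b : ℕ => {a, b} ∈ faces (mapT Fin.valEmbedding (Cplx.faces K d)) 1) u v := by
  classical
  have key : ∀ w : ℕ, {w} ∈ faces (mapT Fin.valEmbedding (Cplx.faces K d)) 0 →
      ∃ a : Fin n, (a : ℕ) = w := by
    intro w hw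
    rw [faces_mapT, mem_mapT] at hw
    obtain ⟨σ, _, hσ⟩ := hw
    have h1 : w ∈ σ.map Fin.valEmbedding := by rw [hσ]; exact mem_singleton_self w
    rw [mem_map] at h1
    obtain ⟨a, _, ha⟩ := h1
    exact ⟨a, ha⟩
  obtain ⟨a, rfl⟩ := key u hu
  obtain ⟨b, rfl⟩ := key v hv
  have h1 := (SimpleGraph.reachable_iff_reflTransGen a b).mp (hc.preconnected a b)
  refine Relation.ReflTransGen.lift (fun x : Fin n => (x : ℕ)) ?_ a b h1
  intro x y hxy
  rw [SimpleGraph.fromRel_adj] at hxy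
  have hK : ({x, y} : Finset (Fin n)) ∈ K := by
    rcases hxy.2 with h | h
    · exact h
    · rwa [pair_comm] at h
  show ({(x : ℕ), (y : ℕ)} : Finset ℕ) ∈ faces (mapT Fin.valEmbedding (Cplx.faces K d)) 1
  rw [faces_mapT, mem_mapT, faces_eq K hp]
  refine ⟨{x, y}, ?_, ?_⟩
  · simp only [Cplx.faces, mem_filter, mem_univ, true_and]
    exact ⟨hK, card_pair hxy.1⟩
  · rw [map_insert, map_singleton]
    rfl

end Fin

end Vale.P067.Facet
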